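import Claimed.Prelude.Def_0500
import Claimed.Agent.R316.Pack015
import Claimed.Agent.R316.Pack003

/-!
# Row 316, BP-BR: bridge between the frozen statement S0572 and the abstract framework.  Definitions

Owner: helper193.

* `EN N = EuclideanSpace ℝ (Fin N)`: the ambient space of `Def_0500`.
* `cr n : CE (Fin n) ≃L[ℝ] EN (2 * n)`: a fixed real linear identification `ℂⁿ = ℝ²ⁿ` (any one: nothing depends on it).
* `JHol M J Φ U`: `Φ : U → M` is a parametrisation (`IsParam`) with `dΦ (i v) = J dΦ v`.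
* `StNN`: Newlander-Nirenberg for embedded Kaehler manifolds (the export of `BP-B4`): `J`-holomorphic parametrisations cover `M`.
* `D2 Φ z a b`, `tanP Φ z`, `sff Φ z a b`: second derivative, tangential projection, second fundamental form of `Φ : ℂ^ι → ℝ^N`
  (the analogues of `secondDeriv`, `tangentialPart`, `secondFund` of `Def_0500` with model `ℂ^ι`).
* `KImm Φ U`: `Φ` is a smooth immersion of the open set `U ⊆ ℂ^ι` into `ℝ^N` whose induced metric is Hermitian and Kaehler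
  (in the form: `⟨D²Φ(a, i b), dΦ c⟩ = - ⟨D²Φ(a, b), dΦ (i c)⟩`).  ALL the differential geometry of the bridge is proved for `KImm`.
* `cof Φ a`: the `a`-th coordinate of `Φ` as a complex valued function.
* `gram`: the induced metric as an `HFam`, `gram Φ z j k = 2 ∑_a ∂̄_j Φ_a ∂_k Φ_a`
  (`= ⟨dΦ e_j, dΦ e_k⟩ + i ⟨dΦ (i e_j), dΦ e_k⟩` for `KImm`); `qf (gram Φ z) v = ‖dΦ v‖²`.
-/

set_option autoImplicit false
open scoped ContDiff ComplexOrder ComplexConjugate Topology
open Claims.C0500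

namespace Claimed.Agent.R316.BR

/-- the ambient space of `Def_0500`. -/
abbrev EN (N : ℕ) := EuclideanSpace ℝ (Fin N)

theorem finrank_CE_eq (n : ℕ) :
    Module.finrank ℝ (CE (Fin n)) = Module.finrank ℝ (EN (2 * n)) := by
  rw [finrank_real_of_complex]
  simp

/-- a fixed real linear identification `ℂⁿ = ℝ²ⁿ`. -/
noncomputable def cr (n : ℕ) : CE (Fin n) ≃L[ℝ] EN (2 * n) :=
  ContinuousLinearEquiv.ofFinrankEq (finrank_CE_eq n)

section defs

variable {ι : Type} [Fintype ι] {N : ℕ}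

/-- `J`-holomorphic parametrisation of `M`. -/
def JHol (M : Set (EN N)) (J : EN N → EN N →L[ℝ] EN N) (Φ : CE ι → EN N) (U : Set (CE ι)) : Prop :=
  IsParam M Φ U ∧ ∀ z ∈ U, ∀ v : CE ι, fderiv ℝ Φ z (Complex.I • v) = J (Φ z) (fderiv ℝ Φ z v)

/-- second derivative `D²Φ_z(a,b)`. -/
noncomputable def D2 (Φ : CE ι → EN N) (z a b : CE ι) : EN N :=
  fderiv ℝ (fun y => fderiv ℝ Φ y b) z a

/-- orthogonal projection onto the tangent space `range dΦ_z`. -/
noncomputable def tanP (Φ : CE ι → EN N) (z : CE ι) (x : EN N) : EN N :=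
  (LinearMap.range (fderiv ℝ Φ z).toLinearMap).starProjection x

/-- second fundamental form. -/
noncomputable def sff (Φ : CE ι → EN N) (z a b : CE ι) : EN N :=
  D2 Φ z a b - tanP Φ z (D2 Φ z a b)

/-- smooth immersion of an open subset of `ℂ^ι` with Hermitian Kaehler induced metric. -/
structure KImm (Φ : CE ι → EN N) (U : Set (CE ι)) : Prop where
  isOpen : IsOpen U
  smooth : ContDiffOn ℝ ∞ Φ U
  immersion : ∀ z ∈ U, Function.Injective (fderiv ℝ Φ z)
  isom : ∀ z ∈ U, ∀ a b : CE ι,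
    inner ℝ (fderiv ℝ Φ z (Complex.I • a)) (fderiv ℝ Φ z (Complex.I • b)) =
      inner ℝ (fderiv ℝ Φ z a) (fderiv ℝ Φ z b)
  kahler : ∀ z ∈ U, ∀ a b c : CE ι,
    inner ℝ (D2 Φ z a (Complex.I • b)) (fderiv ℝ Φ z c) =
      - inner ℝ (D2 Φ z a b) (fderiv ℝ Φ z (Complex.I • c))

/-- the `a`-th coordinate function, complex valued. -/
noncomputable def cof (Φ : CE ι → EN N) (a : Fin N) : CE ι → ℂ := fun w => ((Φ w a : ℝ) : ℂ)

variable [DecidableEq ι]

/-- the induced metric. -/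
noncomputable def gram : HFam (EN N) ι := fun Φ z =>
  Matrix.of fun j k => 2 * ∑ a, dzb j (cof Φ a) z * dz k (cof Φ a) z

/-- the Gauss expression of the holomorphic bisectional curvature. -/
noncomputable def gaussB (Φ : CE ι → EN N) (z a b : CE ι) : ℝ :=
  inner ℝ (sff Φ z (Complex.I • a) (Complex.I • b)) (sff Φ z a b) -
    inner ℝ (sff Φ z a (Complex.I • b)) (sff Φ z (Complex.I • a) b)

end defs

/-- **Newlander-Nirenberg for embedded Kaehler manifolds** (export of `BP-B4`). -/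
def StNN : Prop :=
  ∀ (n N : ℕ) (M : Set (EN N)) (J : EN N → EN N →L[ℝ] EN N), 1 ≤ n →
    (∀ p ∈ M, ∃ (ψ : EN (2 * n) → EN N) (U : Set (EN (2 * n))), IsLocalParam M ψ U ∧ p ∈ ψ '' U) →
    IsKahlerEmbedded n M J →
    ∀ p ∈ M, ∃ (Φ : CE (Fin n) → EN N) (U : Set (CE (Fin n))), JHol M J Φ U ∧ p ∈ Φ '' U

/-- the abstract main theorem, for ambient spaces `ℝ^N`. -/
def StMainEN : Prop :=
  ∀ (n N : ℕ) (𝓜 : CMfd (EN N) (Fin n)) (g : HFam (EN N) (Fin n)), InitialData 𝓜 g →
    ∃ Ψ : EN N → CE (Fin n), IsBiholToCn 𝓜 Ψ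

end Claimed.Agent.R316.BR
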