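import Claimed.Agent.R316.Pack021
import Claimed.Agent.R316.Base.Metric.Api
import Claimed.Agent.R316.Pack003

/-!
# Row 316, BR-6/7/8: properness, the converse direction, `InitialData`, and the bridge theorem

Owner: helper193.

`bridge : StMainEN → StNN → (statement of S0572)`.
-/

set_option autoImplicit false
set_option linter.unusedSectionVars false
open scoped ContDiff ComplexOrder ComplexConjugate Topology Matrix
open Claims.C0500

namespace Claimed.Agent.R316.BR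

variable {n N : ℕ} {M : Set (EN N)} {J : EN N → EN N →L[ℝ] EN N}
variable {hc : ∀ x ∈ M, ∃ (Φ : CE (Fin n) → EN N) (U : Set (CE (Fin n))), JHol M J Φ U ∧ x ∈ Φ '' U}

/-! ### the metric -/

theorem isHForm_gram : IsHForm (mfd M J hc) gram where
  herm := fun _ z _ => gram_isHermitian _ z
  smooth := fun {Φ U} hΦ j k => gram_contDiffOn hΦ.1.isOpen hΦ.1.smooth j k
  compat := by
    intro Φ Ψ U W hΦ hΨ z hz hzW
    have hzz : z ∈ U ∩ Φ ⁻¹' (Ψ '' W) := ⟨hz, hzW⟩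
    have h1 := CMfd.eventually_eq_comp_trans (𝓜 := mfd M J hc) hΦ hΨ hzz
    have h2 := CMfd.trans_differentiableAt (𝓜 := mfd M J hc) hΦ hΨ hzz
    have h3 : DifferentiableAt ℝ Ψ ((Function.invFunOn Ψ W ∘ Φ) z) :=
      hΨ.1.differentiableAt (CMfd.trans_mem (𝓜 := mfd M J hc) hΦ hΨ hzz)
    rw [gram_congr h1, gram_comp_hol _ h2 h3]
    rfl

theorem isKahler_gram (hK : IsKahlerEmbedded n M J) : IsKahler (mfd M J hc) gram where
  toIsHForm := isHForm_gram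
  posDef := fun {_ _} hΦ _ hz => (JHol.kimm hK hΦ).gram_posDef hz
  closed := fun _ _ hΦ _ hz j k l => (JHol.kimm hK hΦ).gram_closed hz j k l

theorem bisecPos_gram (hK : IsKahlerEmbedded n M J) (hB : BisecHyp n M J) :
    BisecPos (mfd M J hc) gram := by
  intro Φ U hΦ z hz v w hv hw
  have h := (JHol.kimm hK hΦ).bisec_gram hz (WithLp.toLp 2 v) (WithLp.toLp 2 w)
  have hv' : (WithLp.toLp 2 v : CE (Fin n)) ≠ 0 := by
    intro h0
    exact hv (by simpa using congrArg WithLp.ofLp h0)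
  have hw' : (WithLp.toLp 2 w : CE (Fin n)) ≠ 0 := by
    intro h0
    exact hw (by simpa using congrArg WithLp.ofLp h0)
  have hpos := JHol.gaussB_pos hB hΦ hz hv' hw'
  have h' : bisec gram Φ z v w = (1 / 2 : ℝ) * gaussB Φ z (WithLp.toLp 2 v) (WithLp.toLp 2 w) := h
  rw [h']
  positivity

/-! ### BR-6: properness -/

theorem ambQ_gram (hK : IsKahlerEmbedded n M J) {x a : EN N} (hx : x ∈ M)
    (ha : a ∈ (mfd M J hc).tangent x) : ambQ (mfd M J hc) gram x a = ‖a‖ ^ 2 := by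
  have hx' : x ∈ (mfd M J hc).carrier := hx
  have hΦ : JHol M J ((mfd M J hc).pΦ x) ((mfd M J hc).pU x) := (mfd M J hc).isHol_pΦ hx'
  unfold ambQ
  rw [(JHol.kimm hK hΦ).qf_gram ((mfd M J hc).co_mem hx'), (g0_tangent_iff hx').1 ha]

theorem norm_sub_le_len (hK : IsKahlerEmbedded n M J) {γ : ℝ → EN N}
    (hγ : IsC1Curve (mfd M J hc) γ) : ‖γ 1 - γ 0‖ ≤ len (mfd M J hc) gram γ 0 1 := by
  have hd : ∀ t, DifferentiableAt ℝ γ t := fun t => hγ.1.differentiable (by norm_num) t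
  have hcd : Continuous (deriv γ) := hγ.1.continuous_deriv (by norm_num)
  have e : ∀ t, Real.sqrt (ambQ (mfd M J hc) gram (γ t) (deriv γ t)) = ‖deriv γ t‖ := by
    intro t
    rw [ambQ_gram hK (hγ.2 t) (CMfd.deriv_mem_tangent (hd t) (Filter.Eventually.of_forall hγ.2)),
      Real.sqrt_sq (norm_nonneg _)]
  unfold len
  simp only [e]
  rw [← intervalIntegral.integral_deriv_eq_sub (fun t _ => hd t) (hcd.intervalIntegrable 0 1)]
  exact intervalIntegral.norm_integral_le_integral_norm zero_le_one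

theorem norm_sub_le_hdist (hK : IsKahlerEmbedded n M J) (hconn : IsConnected M) {x y : EN N}
    (hx : x ∈ M) (hy : y ∈ M) : ‖y - x‖ ≤ hdist (mfd M J hc) gram x y := by
  have hconn' : IsConnected (mfd M J hc).carrier := hconn
  obtain ⟨γ₀, h0, h1, h2⟩ := exists_c1Curve hconn' (x := x) (y := y) hx hy
  unfold hdist
  refine le_csInf ⟨_, γ₀, h0, h1, h2, rfl⟩ ?_
  rintro _ ⟨γ, hγ, hγ0, hγ1, rfl⟩
  rw [← hγ0, ← hγ1]
  exact norm_sub_le_len hK hγ

theorem isProperMetric_gram (hK : IsKahlerEmbedded n M J) (hclosed : IsClosed M)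
    (hconn : IsConnected M) : IsProperMetric (mfd M J hc) gram := by
  intro x hx r
  have hconn' : IsConnected (mfd M J hc).carrier := hconn
  obtain ⟨F, hF, hFe⟩ := exists_isClosed_hcball (isKahler_gram (hc := hc) hK).toIsMetric hconn' hx r
  have hcl : IsClosed (hcball (mfd M J hc) gram x r) := by
    rw [hFe]
    exact IsClosed.inter hclosed hF
  refine (isCompact_closedBall x r).of_isClosed_subset hcl ?_
  intro y hy
  rw [Metric.mem_closedBall, dist_eq_norm]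
  exact (norm_sub_le_hdist hK hconn hx hy.1).trans hy.2

theorem initialData (hn : 1 ≤ n) (hclosed : IsClosed M) (hnoncpt : ¬ IsCompact M)
    (hconn : IsConnected M) (hK : IsKahlerEmbedded n M J) (hB : BisecHyp n M J) :
    InitialData (mfd M J hc) gram where
  n_pos := hn
  closed := hclosed
  conn := hconn
  noncompact := hnoncpt
  kahler := isKahler_gram hK
  proper := isProperMetric_gram hK hclosed hconn
  bisec := bisecPos_gram hK hB

/-! ### BR-7: the converse direction -/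

theorem concl_of_bihol {Ψ : EN N → CE (Fin n)} (hΨ : IsBiholToCn (mfd M J hc) Ψ)
    (ψ : EN (2 * n) → EN N) (U : Set (EN (2 * n))) (hψ : IsLocalParam M ψ U) :
    ContDiffOn ℝ ∞ (Ψ ∘ ψ) U ∧ ∀ u ∈ U,
      Function.Injective (fderiv ℝ (Ψ ∘ ψ) u) ∧
      ∀ v v' : EN (2 * n), fderiv ℝ ψ u v' = J (ψ u) (fderiv ℝ ψ u v) →
        fderiv ℝ (Ψ ∘ ψ) u v' = Complex.I • fderiv ℝ (Ψ ∘ ψ) u v := by
  have key : ∀ u ∈ U, ContDiffAt ℝ ∞ (Ψ ∘ ψ) u ∧ Function.Injective (fderiv ℝ (Ψ ∘ ψ) u) ∧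
      ∀ v v' : EN (2 * n), fderiv ℝ ψ u v' = J (ψ u) (fderiv ℝ ψ u v) →
        fderiv ℝ (Ψ ∘ ψ) u v' = Complex.I • fderiv ℝ (Ψ ∘ ψ) u v := by
    intro u hu
    obtain ⟨hUo, hsm, himm, -, ⟨O', hO', himg⟩, -⟩ := hψ
    have hmem : ∀ y ∈ U, ψ y ∈ M := fun y hy =>
      (himg ▸ (⟨y, hy, rfl⟩ : ψ y ∈ ψ '' U) : ψ y ∈ M ∩ O').1
    obtain ⟨Φ, W, hΦ, hxW⟩ := hc (ψ u) (hmem u hu)
    have hψu : ContDiffAt ℝ ∞ ψ u := (hsm u hu).contDiffAt (hUo.mem_nhds hu)
    have hψd : DifferentiableAt ℝ ψ u := hψu.differentiableAt (by simp)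
    have hM : ∀ᶠ y in 𝓝 u, ψ y ∈ M := by
      filter_upwards [hUo.mem_nhds hu] with y hy
      exact hmem y hy
    have hσ : ContDiffAt ℝ ∞ (Function.invFunOn Φ W ∘ ψ) u :=
      hΦ.1.contDiffAt_invFunOn_comp le_rfl hψu hM hxW
    obtain ⟨hσd, hσv⟩ := hΦ.1.hasFDerivAt_invFunOn_comp hψd hM hxW
    have hzW : Function.invFunOn Φ W (ψ u) ∈ W := hΦ.1.invFunOn_mem hxW
    have hzr : Φ (Function.invFunOn Φ W (ψ u)) = ψ u := hΦ.1.rightInv hxW
    obtain ⟨hhol, hinj⟩ := hΨ.2 Φ W hΦ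
    have hholat : DifferentiableAt ℂ (Ψ ∘ Φ) (Function.invFunOn Φ W (ψ u)) :=
      (hhol _ hzW).differentiableAt (hΦ.1.isOpen.mem_nhds hzW)
    have hsmΨΦ : ContDiffAt ℝ ∞ (Ψ ∘ Φ) (Function.invFunOn Φ W (ψ u)) :=
      (hol_contDiffOn_real hΦ.1.isOpen hhol).contDiffAt (hΦ.1.isOpen.mem_nhds hzW)
    -- `ψ y ∈ Φ '' W` near `u`
    obtain ⟨O, hO, hOe⟩ := hΦ.1.image
    have hnear : ∀ᶠ y in 𝓝 u, ψ y ∈ Φ '' W := by
      have hxO : ψ u ∈ O := (hOe ▸ hxW : ψ u ∈ M ∩ O).2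
      filter_upwards [hM, hψu.continuousAt.preimage_mem_nhds (hO.mem_nhds hxO)] with y hy1 hy2
      rw [hOe]
      exact ⟨hy1, hy2⟩
    have heq : Ψ ∘ ψ =ᶠ[𝓝 u] (Ψ ∘ Φ) ∘ (Function.invFunOn Φ W ∘ ψ) := by
      filter_upwards [hnear] with y hy
      simp only [Function.comp_apply]
      rw [hΦ.1.rightInv hy]
    have hfd : ∀ v, fderiv ℝ (Ψ ∘ ψ) u v = fderiv ℂ (Ψ ∘ Φ) (Function.invFunOn Φ W (ψ u))
        (fderiv ℝ (Function.invFunOn Φ W ∘ ψ) u v) := by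
      intro v
      rw [heq.fderiv_eq, fderiv_comp u (hholat.restrictScalars ℝ) hσd, Function.comp_apply,
        hholat.fderiv_restrictScalars ℝ]
      rfl
    refine ⟨(hsmΨΦ.comp u hσ).congr_of_eventuallyEq heq, ?_, ?_⟩
    · intro a b hab
      rw [hfd, hfd] at hab
      have h1 := hinj _ hzW hab
      apply himm u hu
      rw [hσv, hσv, h1]
    · intro v v' hv
      have hJ := hΦ.2 _ hzW (fderiv ℝ (Function.invFunOn Φ W ∘ ψ) u v)
      rw [hzr] at hJ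
      rw [hσv, hσv, ← hJ] at hv
      have h1 := hΦ.1.immersion _ hzW hv
      rw [hfd, hfd, h1, map_smul]
  exact ⟨fun u hu => (key u hu).1.contDiffWithinAt, fun u hu => (key u hu).2⟩

/-! ### BR-8: the bridge -/

theorem bridge (hMain : StMainEN) (hNN : StNN)
    (n : ℕ) (hn : 1 ≤ n) (N : ℕ) (M : Set (EuclideanSpace ℝ (Fin N)))
    (hclosed : IsClosed M) (hnoncpt : ¬ IsCompact M) (hconn : IsConnected M)
    (hsub : ∀ p ∈ M, ∃ (ψ : EuclideanSpace ℝ (Fin (2 * n)) → EuclideanSpace ℝ (Fin N))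
      (U : Set (EuclideanSpace ℝ (Fin (2 * n)))), IsLocalParam M ψ U ∧ p ∈ ψ '' U)
    (J : EuclideanSpace ℝ (Fin N) → EuclideanSpace ℝ (Fin N) →L[ℝ] EuclideanSpace ℝ (Fin N))
    (hJ : IsKahlerEmbedded n M J)
    (hbisec : ∀ (ψ : EuclideanSpace ℝ (Fin (2 * n)) → EuclideanSpace ℝ (Fin N))
      (U : Set (EuclideanSpace ℝ (Fin (2 * n)))), IsLocalParam M ψ U → ∀ u ∈ U,
        ∀ v w v' w' : EuclideanSpace ℝ (Fin (2 * n)), v ≠ 0 → w ≠ 0 →
          fderiv ℝ ψ u v' = J (ψ u) (fderiv ℝ ψ u v) →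
          fderiv ℝ ψ u w' = J (ψ u) (fderiv ℝ ψ u w) →
          0 < inner ℝ (secondFund ψ u v' w') (secondFund ψ u v w) -
            inner ℝ (secondFund ψ u v w') (secondFund ψ u v' w)) :
    ∃ F : EuclideanSpace ℝ (Fin N) → EuclideanSpace ℂ (Fin n),
      Set.BijOn F M Set.univ ∧
      ∀ (ψ : EuclideanSpace ℝ (Fin (2 * n)) → EuclideanSpace ℝ (Fin N))
        (U : Set (EuclideanSpace ℝ (Fin (2 * n)))), IsLocalParam M ψ U →
          ContDiffOn ℝ ∞ (F ∘ ψ) U ∧ ∀ u ∈ U,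
            Function.Injective (fderiv ℝ (F ∘ ψ) u) ∧
            ∀ v v' : EuclideanSpace ℝ (Fin (2 * n)),
              fderiv ℝ ψ u v' = J (ψ u) (fderiv ℝ ψ u v) →
                fderiv ℝ (F ∘ ψ) u v' = Complex.I • fderiv ℝ (F ∘ ψ) u v := by
  have hc := hNN n N M J hn hsub hJ
  obtain ⟨Ψ, hΨ⟩ := hMain n N (mfd M J hc) gram (initialData hn hclosed hnoncpt hconn hJ hbisec)
  exact ⟨Ψ, hΨ.1, fun ψ U hψ => concl_of_bihol hΨ ψ U hψ⟩

end Claimed.Agent.R316.BR
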